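import Vale.Agent.H16.FPP.Defs
import Vale.Agent.H16.FPP.Sym

namespace Vale.Agent.Results.P158.NoStrip

open MeasureTheory ProbabilityTheory Vale.Agent.P158
open scoped NNReal

/-- For i.i.d. edge weights on `ℤ²` with an arbitrary atomless law on `[0, ∞)`, almost surely
both coordinates are unbounded along every geodesic ray and along both ends of every bigeodesic;
in particular no bigeodesic stays in a horizontal or vertical strip. -/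
theorem result {Ω : Type*} [MeasurableSpace Ω] (P : Measure Ω) [IsProbabilityMeasure P]
    (G : Measure ℝ≥0) (hG : ∀ x, G {x} = 0) (t : Edge → Ω → ℝ≥0) (ht : ∀ e, Measurable (t e))
    (hlaw : ∀ e, P.map (t e) = G) (hind : iIndepFun t P) :
    ∀ᵐ ω ∂P,
      (∀ v : ℕ → ℤ × ℤ, IsRay (fun e => t e ω) v → ∀ K N : ℕ,
        (∃ i ≥ N, (K : ℤ) < |(v i).1|) ∧ (∃ i ≥ N, (K : ℤ) < |(v i).2|)) ∧
      (∀ v : ℤ → ℤ × ℤ, IsBigeodesic (fun e => t e ω) v → ∀ (K : ℕ) (N : ℤ),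
        ((∃ i ≥ N, (K : ℤ) < |(v i).1|) ∧ (∃ i ≥ N, (K : ℤ) < |(v i).2|)) ∧
        ((∃ i ≤ N, (K : ℤ) < |(v i).1|) ∧ (∃ i ≤ N, (K : ℤ) < |(v i).2|))) := by
  filter_upwards [unbounded P G hG t ht hlaw hind] with ω hω
  constructor
  · intro v hv K N
    obtain ⟨⟨i, hi⟩, ⟨j, hj⟩⟩ := hω _ (ray_tail hv N) K
    exact ⟨⟨N + i, by omega, hi⟩, ⟨N + j, by omega, hj⟩⟩
  · intro v hv K N
    obtain ⟨⟨i, hi⟩, ⟨j, hj⟩⟩ := hω _ (ray_of_bi hv N) K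
    obtain ⟨⟨i', hi'⟩, ⟨j', hj'⟩⟩ := hω _ (ray_of_bi' hv N) K
    exact ⟨⟨⟨N + i, by omega, hi⟩, ⟨N + j, by omega, hj⟩⟩,
      ⟨⟨N - i', by omega, hi'⟩, ⟨N - j', by omega, hj'⟩⟩⟩

end Vale.Agent.Results.P158.NoStrip
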